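import Vale.Agent.P060.Classes
import Vale.Agent.P064.BD.Fibre

/-!
# P060, PART C2: counting the ordered pairs of non-touching pairs over all bijections
-/

namespace P060

open Finset

theorem card_nonadj_idx {V : Type*} [Fintype V] [DecidableEq V] (G : SimpleGraph V)
    [DecidableRel G.Adj] (d m : ℕ)
    (hdeg : ∀ v, (univ.filter (fun w => ¬ G.Adj v w)).card ≤ d)
    (b : Fin m → V) (hb : Function.Injective b) (v : V) :
    (univ.filter (fun k : Fin m => ¬ G.Adj v (b k))).card ≤ d := by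
  refine le_trans ?_ (hdeg v)
  refine Finset.card_le_card_of_injOn b ?_ hb.injOn
  intro k hk
  simpa using hk

theorem card_two_fibre {m : ℕ} (i j k l : Fin m) (hij : i ≠ j) :
    (univ.filter (fun σ : Equiv.Perm (Fin m) => σ i = k ∧ σ j = l)).card
      ≤ (m - 2).factorial := by
  classical
  have h := Vale.Agent.P064.BD.card_agree_le ({i, j} : Finset (Fin m))
    (fun x => if x = i then k else l)
  rw [Finset.card_pair hij] at h
  refine le_trans (Finset.card_le_card ?_) h
  intro σ hσ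
  simp only [Finset.mem_filter, Finset.mem_univ, true_and] at hσ ⊢
  intro x hx
  simp only [Finset.mem_insert, Finset.mem_singleton] at hx
  rcases hx with rfl | rfl
  · simp [hσ.1]
  · simp [hσ.2, Ne.symm hij]

theorem count2 {V : Type*} [Fintype V] [DecidableEq V] (G : SimpleGraph V) [DecidableRel G.Adj]
    (d m : ℕ) (hdeg : ∀ v, (univ.filter (fun w => ¬ G.Adj v w)).card ≤ d)
    (a b : Fin m → V) (ha : Function.Injective a) (hb : Function.Injective b) :
    ∑ σ : Equiv.Perm (Fin m), (univ.filter (fun p : Fin m × Fin m => p.1 ≠ p.2 ∧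
        ¬ G.Adj (a p.1) (a p.2) ∧ ¬ G.Adj (a p.1) (b (σ p.2)) ∧
        ¬ G.Adj (b (σ p.1)) (a p.2) ∧ ¬ G.Adj (b (σ p.1)) (b (σ p.2)))).card
      ≤ m * d ^ 3 * (m - 2).factorial := by
  classical
  have hswap : ∑ σ : Equiv.Perm (Fin m), (univ.filter (fun p : Fin m × Fin m => p.1 ≠ p.2 ∧
        ¬ G.Adj (a p.1) (a p.2) ∧ ¬ G.Adj (a p.1) (b (σ p.2)) ∧
        ¬ G.Adj (b (σ p.1)) (a p.2) ∧ ¬ G.Adj (b (σ p.1)) (b (σ p.2)))).card
      = ∑ p : Fin m × Fin m, (univ.filter (fun σ : Equiv.Perm (Fin m) => p.1 ≠ p.2 ∧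
        ¬ G.Adj (a p.1) (a p.2) ∧ ¬ G.Adj (a p.1) (b (σ p.2)) ∧
        ¬ G.Adj (b (σ p.1)) (a p.2) ∧ ¬ G.Adj (b (σ p.1)) (b (σ p.2)))).card := by
    simp only [Finset.card_filter]
    exact Finset.sum_comm
  rw [hswap]
  set S : Finset (Fin m × Fin m) :=
    univ.filter (fun p : Fin m × Fin m => p.1 ≠ p.2 ∧ ¬ G.Adj (a p.1) (a p.2)) with hSdef
  have hS : S.card ≤ m * d := by
    have hsub : S ⊆ (univ : Finset (Fin m)).biUnion
        (fun i => (univ.filter (fun j : Fin m => ¬ G.Adj (a i) (a j))).image (fun j => (i, j))) := by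
      intro p hp
      simp only [hSdef, Finset.mem_filter, Finset.mem_univ, true_and] at hp
      simp only [Finset.mem_biUnion, Finset.mem_univ, true_and, Finset.mem_image,
        Finset.mem_filter]
      exact ⟨p.1, p.2, hp.2, rfl⟩
    refine le_trans (Finset.card_le_card hsub) (le_trans Finset.card_biUnion_le ?_)
    refine le_trans (Finset.sum_le_card_nsmul _ _ d ?_) ?_
    · intro i _
      exact le_trans Finset.card_image_le (card_nonadj_idx G d m hdeg a ha (a i))
    · simp
  have hterm : ∀ p : Fin m × Fin m, (univ.filter (fun σ : Equiv.Perm (Fin m) => p.1 ≠ p.2 ∧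
        ¬ G.Adj (a p.1) (a p.2) ∧ ¬ G.Adj (a p.1) (b (σ p.2)) ∧
        ¬ G.Adj (b (σ p.1)) (a p.2) ∧ ¬ G.Adj (b (σ p.1)) (b (σ p.2)))).card
      ≤ if p ∈ S then d * d * (m - 2).factorial else 0 := by
    intro p
    by_cases hp : p ∈ S
    · rw [if_pos hp]
      simp only [hSdef, Finset.mem_filter, Finset.mem_univ, true_and] at hp
      set K : Finset (Fin m) := univ.filter (fun k : Fin m => ¬ G.Adj (a p.2) (b k)) with hK
      set L : Finset (Fin m) := univ.filter (fun l : Fin m => ¬ G.Adj (a p.1) (b l)) with hL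
      have hsub : (univ.filter (fun σ : Equiv.Perm (Fin m) => p.1 ≠ p.2 ∧
        ¬ G.Adj (a p.1) (a p.2) ∧ ¬ G.Adj (a p.1) (b (σ p.2)) ∧
        ¬ G.Adj (b (σ p.1)) (a p.2) ∧ ¬ G.Adj (b (σ p.1)) (b (σ p.2))))
          ⊆ (K ×ˢ L).biUnion (fun kl =>
            univ.filter (fun σ : Equiv.Perm (Fin m) => σ p.1 = kl.1 ∧ σ p.2 = kl.2)) := by
        intro σ hσ
        simp only [Finset.mem_filter, Finset.mem_univ, true_and] at hσ
        simp only [Finset.mem_biUnion, Finset.mem_product, Finset.mem_filter, Finset.mem_univ,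
          true_and, hK, hL]
        refine ⟨(σ p.1, σ p.2), ⟨?_, hσ.2.2.1⟩, rfl, rfl⟩
        intro h
        exact hσ.2.2.2.1 h.symm
      refine le_trans (Finset.card_le_card hsub) (le_trans Finset.card_biUnion_le ?_)
      refine le_trans (Finset.sum_le_card_nsmul _ _ (m - 2).factorial ?_) ?_
      · intro kl _
        exact card_two_fibre p.1 p.2 kl.1 kl.2 hp.1
      · rw [Finset.card_product, smul_eq_mul]
        exact Nat.mul_le_mul_right _ (Nat.mul_le_mul
          (card_nonadj_idx G d m hdeg b hb (a p.2)) (card_nonadj_idx G d m hdeg b hb (a p.1)))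
    · rw [if_neg hp]
      simp only [hSdef, Finset.mem_filter, Finset.mem_univ, true_and] at hp
      rw [Nat.le_zero, Finset.card_eq_zero, Finset.filter_eq_empty_iff]
      intro σ _ h
      exact hp ⟨h.1, h.2.1⟩
  refine le_trans (Finset.sum_le_sum (fun p _ => hterm p)) ?_
  rw [← Finset.sum_filter, Finset.sum_const, smul_eq_mul]
  have hfil : (univ.filter (fun p : Fin m × Fin m => p ∈ S)) = S := by
    ext p; simp
  rw [hfil]
  calc S.card * (d * d * (m - 2).factorial)
      ≤ (m * d) * (d * d * (m - 2).factorial) := Nat.mul_le_mul_right _ hS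
    _ = m * d ^ 3 * (m - 2).factorial := by ring

end P060
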