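import Vale.Agent.P060.Count1
import Vale.Agent.P060.Count2

namespace P060

open Finset

theorem exists_good_perm {V : Type*} [Fintype V] [DecidableEq V] (G : SimpleGraph V)
    [DecidableRel G.Adj] (d m : ℕ) (hm : 2 ≤ m)
    (hdeg : ∀ v, (univ.filter (fun w => ¬ G.Adj v w)).card ≤ d)
    (a b : Fin m → V) (ha : Function.Injective a) (hb : Function.Injective b) :
    ∃ σ : Equiv.Perm (Fin m),
      (m - 1) * ((univ.filter (fun i => ¬ G.Adj (a i) (b (σ i)))).card +
        (univ.filter (fun p : Fin m × Fin m => p.1 ≠ p.2 ∧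
        ¬ G.Adj (a p.1) (a p.2) ∧ ¬ G.Adj (a p.1) (b (σ p.2)) ∧
        ¬ G.Adj (b (σ p.1)) (a p.2) ∧ ¬ G.Adj (b (σ p.1)) (b (σ p.2)))).card)
      ≤ (m - 1) * d + d ^ 3 := by
  have h1 := count1 G d m hdeg a b hb
  have h2 := count2 G d m hdeg a b ha hb
  obtain ⟨k, rfl⟩ : ∃ k, m = k + 2 := ⟨m - 2, by omega⟩
  have key := Finset.exists_le_of_sum_le (s := (univ : Finset (Equiv.Perm (Fin (k + 2)))))
    (f := fun σ => (k + 2 - 1) * ((univ.filter (fun i => ¬ G.Adj (a i) (b (σ i)))).card +
        (univ.filter (fun p : Fin (k + 2) × Fin (k + 2) => p.1 ≠ p.2 ∧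
        ¬ G.Adj (a p.1) (a p.2) ∧ ¬ G.Adj (a p.1) (b (σ p.2)) ∧
        ¬ G.Adj (b (σ p.1)) (a p.2) ∧ ¬ G.Adj (b (σ p.1)) (b (σ p.2)))).card))
    (g := fun _ => (k + 2 - 1) * d + d ^ 3) ⟨1, mem_univ _⟩ ?_
  · obtain ⟨σ, -, hσ⟩ := key
    exact ⟨σ, hσ⟩
  · rw [← mul_sum, sum_add_distrib, sum_const, card_univ, Fintype.card_perm, Fintype.card_fin,
      smul_eq_mul]
    have e1 : k + 2 - 1 = k + 1 := by omega
    have e2 : k + 2 - 2 = k := by omega
    rw [e1] at h1 ⊢
    rw [e2] at h2
    have f1 : (k + 2).factorial = (k + 2) * ((k + 1) * k.factorial) := by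
      rw [Nat.factorial_succ, Nat.factorial_succ]
    have f2 : (k + 1).factorial = (k + 1) * k.factorial := Nat.factorial_succ k
    rw [f2] at h1
    rw [f1]
    calc (k + 1) * (_ + _) ≤ (k + 1) * ((k + 2) * d * ((k + 1) * k.factorial)
          + (k + 2) * d ^ 3 * k.factorial) := Nat.mul_le_mul_left _ (Nat.add_le_add h1 h2)
      _ = (k + 2) * ((k + 1) * k.factorial) * ((k + 1) * d + d ^ 3) := by ring

theorem minor_of_perm {V : Type*} [Fintype V] [DecidableEq V] (G : SimpleGraph V)
    [DecidableRel G.Adj] (m : ℕ) (a b : Fin m → V) (hinj : Function.Injective (Sum.elim a b))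
    (σ : Equiv.Perm (Fin m)) :
    ∃ t, HasCompleteMinor G t ∧
      m ≤ t + ((univ.filter (fun i => ¬ G.Adj (a i) (b (σ i)))).card +
        (univ.filter (fun p : Fin m × Fin m => p.1 ≠ p.2 ∧
        ¬ G.Adj (a p.1) (a p.2) ∧ ¬ G.Adj (a p.1) (b (σ p.2)) ∧
        ¬ G.Adj (b (σ p.1)) (a p.2) ∧ ¬ G.Adj (b (σ p.1)) (b (σ p.2)))).card) := by
  classical
  have ha : Function.Injective a := fun i j h => Sum.inl_injective (hinj (by simpa using h))
  have hb : Function.Injective b := fun i j h => Sum.inr_injective (hinj (by simpa using h))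
  have hab : ∀ i j, a i ≠ b j := fun i j h => by
    have := hinj (a₁ := Sum.inl i) (a₂ := Sum.inr j) (by simpa using h)
    simp at this
  set X1 := univ.filter (fun i => ¬ G.Adj (a i) (b (σ i))) with hX1
  set X2 := univ.filter (fun p : Fin m × Fin m => p.1 ≠ p.2 ∧
        ¬ G.Adj (a p.1) (a p.2) ∧ ¬ G.Adj (a p.1) (b (σ p.2)) ∧
        ¬ G.Adj (b (σ p.1)) (a p.2) ∧ ¬ G.Adj (b (σ p.1)) (b (σ p.2))) with hX2
  let R : Finset (Fin m) := X1 ∪ X2.image Prod.fst
  have hR : R.card ≤ X1.card + X2.card :=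
    (card_union_le _ _).trans (Nat.add_le_add_left card_image_le _)
  refine ⟨Fintype.card {i : Fin m // i ∉ R}, ?_, ?_⟩
  · refine hasCompleteMinor_of_family G (fun i : {i : Fin m // i ∉ R} => {a i.1, b (σ i.1)})
      (fun i => ⟨a i.1, by simp⟩) ?_ ?_ ?_
    · intro i j hij
      have hij' : i.1 ≠ j.1 := fun h => hij (Subtype.ext h)
      rw [Set.disjoint_left]
      intro x hx hy
      simp only [Set.mem_insert_iff, Set.mem_singleton_iff] at hx hy
      rcases hx with rfl | rfl <;> rcases hy with h | h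
      · exact hij' (ha h)
      · exact hab _ _ h
      · exact hab _ _ h.symm
      · exact hij' (σ.injective (hb h))
    · intro i
      apply G.induce_pair_connected_of_adj
      by_contra h
      exact i.2 (mem_union_left _ (mem_filter.2 ⟨mem_univ _, h⟩))
    · intro i j hij
      have hij' : i.1 ≠ j.1 := fun h => hij (Subtype.ext h)
      by_contra hcon
      apply i.2
      apply mem_union_right
      rw [mem_image]
      refine ⟨(i.1, j.1), mem_filter.2 ⟨mem_univ _, hij', ?_, ?_, ?_, ?_⟩, rfl⟩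
      · exact fun h => hcon ⟨a i.1, by simp, a j.1, by simp, h⟩
      · exact fun h => hcon ⟨a i.1, by simp, b (σ j.1), by simp, h⟩
      · exact fun h => hcon ⟨b (σ i.1), by simp, a j.1, by simp, h⟩
      · exact fun h => hcon ⟨b (σ i.1), by simp, b (σ j.1), by simp, h⟩
  · have hc : Fintype.card {i : Fin m // i ∉ R} = m - R.card := by
      rw [Fintype.card_subtype_compl (fun i => i ∈ R)]
      simp
    rw [hc]
    omega

theorem exists_split (V : Type*) [Fintype V] :
    ∃ a b : Fin (Fintype.card V / 2) → V, Function.Injective (Sum.elim a b) := by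
  let e := (Fintype.equivFin V).symm
  refine ⟨fun i => e ⟨i.1, by have := i.2; omega⟩,
    fun i => e ⟨Fintype.card V / 2 + i.1, by have := i.2; omega⟩, ?_⟩
  rintro (i | i) (j | j) h
  · have h' := congrArg Fin.val (e.injective h)
    exact congrArg Sum.inl (Fin.ext h')
  · have h' := congrArg Fin.val (e.injective h)
    have := i.2
    simp only at h'
    omega
  · have h' := congrArg Fin.val (e.injective h)
    have := j.2
    simp only at h'
    omega
  · have h' := congrArg Fin.val (e.injective h)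
    simp only at h'
    exact congrArg Sum.inr (Fin.ext (by omega))

theorem almost_half {V : Type*} [Fintype V] [DecidableEq V] (G : SimpleGraph V)
    [DecidableRel G.Adj] (d : ℕ)
    (hdeg : ∀ v, (univ.filter (fun w => ¬ G.Adj v w)).card ≤ d) :
    ∃ t, HasCompleteMinor G t ∧
      (Fintype.card V / 2 - 1) * (Fintype.card V / 2)
        ≤ (Fintype.card V / 2 - 1) * (t + d) + d ^ 3 := by
  obtain ⟨a, b, hinj⟩ := exists_split V
  have ha : Function.Injective a := fun i j h => Sum.inl_injective (hinj (by simpa using h))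
  have hb : Function.Injective b := fun i j h => Sum.inr_injective (hinj (by simpa using h))
  by_cases hm : 2 ≤ Fintype.card V / 2
  · obtain ⟨σ, hσ⟩ := exists_good_perm G d _ hm hdeg a b ha hb
    obtain ⟨t, ht, hle⟩ := minor_of_perm G _ a b hinj σ
    refine ⟨t, ht, ?_⟩
    calc (Fintype.card V / 2 - 1) * (Fintype.card V / 2)
        ≤ (Fintype.card V / 2 - 1) * (t + _) := Nat.mul_le_mul_left _ hle
      _ = (Fintype.card V / 2 - 1) * t + (Fintype.card V / 2 - 1) * _ := by rw [Nat.mul_add]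
      _ ≤ (Fintype.card V / 2 - 1) * t + ((Fintype.card V / 2 - 1) * d + d ^ 3) :=
          Nat.add_le_add_left hσ _
      _ = (Fintype.card V / 2 - 1) * (t + d) + d ^ 3 := by ring
  · refine ⟨0, ⟨fun i => i.elim0, fun i => i.elim0, fun i => i.elim0, fun i => i.elim0,
      fun i => i.elim0⟩, ?_⟩
    have : Fintype.card V / 2 - 1 = 0 := by omega
    rw [this]
    simp

end P060
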