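import Vale.Agent.P060.Maximal

namespace P060

open Finset

/-- Pairing vertices inside the colour classes of a proper colouring of the complement without
two-coloured four-cycles gives a complete minor whose branch sets are edges. -/
theorem pairs_in_classes {V : Type*} [Fintype V] [DecidableEq V] (G : SimpleGraph V) (K : ℕ)
    (c : V → Fin K)
    (hproper : ∀ x y, x ≠ y → c x = c y → G.Adj x y)
    (hC4 : ∀ x y u v, x ≠ y → u ≠ v → c x = c y → c u = c v → c x ≠ c u →
      G.Adj x u ∨ G.Adj x v ∨ G.Adj y u ∨ G.Adj y v) :
    ∃ t, Fintype.card V ≤ 2 * t + K ∧ HasCompleteMinor G t := by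
  classical
  let G' : SimpleGraph V :=
    { Adj := fun x y => c x ≠ c y
      symm := ⟨fun x y h => Ne.symm h⟩
      loopless := ⟨fun x h => h rfl⟩ }
  obtain ⟨m, -, a, b, hinj, hnon, hmax⟩ := exists_maximal G' 0 Fin.elim0 Fin.elim0
    (by rintro (x | x) <;> exact x.elim0) (fun i => i.elim0)
  have hcol : ∀ i, c (a i) = c (b i) := fun i => not_not.1 (hnon i)
  have ha : Function.Injective a := fun i j h => Sum.inl_injective (hinj (by simpa using h))
  have hb : Function.Injective b := fun i j h => Sum.inr_injective (hinj (by simpa using h))
  have hab : ∀ i j, a i ≠ b j := fun i j h => by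
    have := hinj (a₁ := Sum.inl i) (a₂ := Sum.inr j) (by simpa using h)
    simp at this
  refine ⟨m, ?_, ?_⟩
  · -- counting
    have hU : (univ.filter (fun v => ∀ x, Sum.elim a b x ≠ v)).card ≤ K := by
      have h1 : (univ.filter (fun v => ∀ x, Sum.elim a b x ≠ v)).card ≤
          (univ : Finset (Fin K)).card := by
        apply card_le_card_of_injOn c (fun _ _ => mem_univ _)
        intro u hu w hw huw
        by_contra hne
        have hu' := (mem_filter.1 (mem_coe.1 hu)).2
        have hw' := (mem_filter.1 (mem_coe.1 hw)).2
        exact hmax u w hu' hw' hne huw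
      simpa using h1
    have hset : univ.filter (fun v => ∀ x, Sum.elim a b x ≠ v) =
        univ \ univ.image (Sum.elim a b) := by
      ext v
      simp
    rw [hset, card_sdiff_of_subset (subset_univ _), card_image_of_injective _ hinj, card_univ,
      card_univ, Fintype.card_sum, Fintype.card_fin] at hU
    omega
  · refine ⟨fun i => {a i, b i}, fun i => ⟨a i, by simp⟩, ?_, ?_, ?_⟩
    · intro i j hij
      rw [Set.disjoint_left]
      intro x hx hy
      simp only [Set.mem_insert_iff, Set.mem_singleton_iff] at hx hy
      rcases hx with rfl | rfl <;> rcases hy with h | h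
      · exact hij (ha h)
      · exact hab _ _ h
      · exact hab _ _ h.symm
      · exact hij (hb h)
    · intro i
      exact G.induce_pair_connected_of_adj (hproper _ _ (hab i i) (hcol i))
    · intro i j hij
      by_cases hc : c (a i) = c (a j)
      · exact ⟨a i, by simp, a j, by simp, hproper _ _ (fun h => hij (ha h)) hc⟩
      · rcases hC4 (a i) (b i) (a j) (b j) (hab i i) (hab j j) (hcol i) (hcol j) hc with
          h | h | h | h
        · exact ⟨a i, by simp, a j, by simp, h⟩
        · exact ⟨a i, by simp, b j, by simp, h⟩
        · exact ⟨b i, by simp, a j, by simp, h⟩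
        · exact ⟨b i, by simp, b j, by simp, h⟩

end P060
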