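import Vale.Agent.P060.Repair

namespace P060

open Finset

/-- `G` has a `K_t` minor: `t` pairwise disjoint nonempty vertex sets, each inducing a connected
subgraph, with an edge of `G` between any two of them. -/
def HasCompleteMinor {V : Type*} (G : SimpleGraph V) (t : ℕ) : Prop :=
  ∃ B : Fin t → Set V,
    (∀ i, (B i).Nonempty) ∧
    (∀ i j, i ≠ j → Disjoint (B i) (B j)) ∧
    (∀ i, (G.induce (B i)).Connected) ∧
    (∀ i j, i ≠ j → ∃ x ∈ B i, ∃ y ∈ B j, G.Adj x y)

theorem hasCompleteMinor_of_family {V T : Type*} [Fintype T] (G : SimpleGraph V) (B : T → Set V)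
    (h1 : ∀ i, (B i).Nonempty) (h2 : ∀ i j, i ≠ j → Disjoint (B i) (B j))
    (h3 : ∀ i, (G.induce (B i)).Connected)
    (h4 : ∀ i j, i ≠ j → ∃ x ∈ B i, ∃ y ∈ B j, G.Adj x y) :
    HasCompleteMinor G (Fintype.card T) := by
  let e := (Fintype.equivFin T).symm
  exact ⟨fun i => B (e i), fun i => h1 _, fun i j hij => h2 _ _ (e.injective.ne hij),
    fun i => h3 _, fun i j hij => h4 _ _ (e.injective.ne hij)⟩

theorem core {V ι : Type*} [Fintype V] [DecidableEq V] [Fintype ι] [DecidableEq ι]
    (G : SimpleGraph V) (d : ℕ)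
    (hdeg : ∀ v, ∃ S : Finset V, S.card ≤ d ∧ ∀ w, ¬ G.Adj v w → w ∈ S)
    (a b : ι → V) (hinj : Function.Injective (Sum.elim a b))
    (hnon : ∀ i, ¬ G.Adj (a i) (b i))
    (hmax : ∀ u w, (∀ x, Sum.elim a b x ≠ u) → (∀ x, Sum.elim a b x ≠ w) → u ≠ w → G.Adj u w)
    (hm : 2 * (d * d) ≤ Fintype.card ι) :
    ∃ t, G.Colorable t ∧ HasCompleteMinor G t := by
  classical
  have ha : Function.Injective a := fun i j h => Sum.inl_injective (hinj (by simpa using h))
  have hb : Function.Injective b := fun i j h => Sum.inr_injective (hinj (by simpa using h))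
  have hab : ∀ i j, a i ≠ b j := fun i j h => by
    have := hinj (a₁ := Sum.inl i) (a₂ := Sum.inr j) (by simpa using h)
    simp at this
  obtain ⟨f, hf, hgood⟩ := repair (fun v w => ∃ x, ¬ G.Adj x v ∧ ¬ G.Adj x w)
    (fun v w ⟨x, h1, h2⟩ => ⟨x, h2, h1⟩) (d * d) (by
      intro v
      choose N hN hN2 using hdeg
      refine ⟨(N v).biUnion N, ?_, ?_⟩
      · exact (card_biUnion_le_card_mul _ _ d (fun x _ => hN x)).trans
          (Nat.mul_le_mul_right d (hN v))
      · rintro w ⟨x, h1, h2⟩
        exact mem_biUnion.2 ⟨x, hN2 v x (fun h => h1 h.symm), hN2 x w h2⟩) a b ha hb hm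
  let T := {v : V // ∀ i, b i ≠ v}
  refine ⟨Fintype.card T, ?_, ?_⟩
  · have hc : ∀ v, ∃ c : T, (∀ i, b i = v → c.1 = a i) ∧ ((∀ i, b i ≠ v) → c.1 = v) := by
      intro v
      by_cases h : ∃ i, b i = v
      · obtain ⟨i, rfl⟩ := h
        exact ⟨⟨a i, fun j => (hab i j).symm⟩, fun j hj => by rw [hb hj],
          fun h => absurd rfl (h i)⟩
      · push Not at h
        exact ⟨⟨v, h⟩, fun i hi => absurd hi (h i), fun _ => rfl⟩
    choose c hc1 hc2 using hc
    refine (SimpleGraph.Coloring.mk c ?_).colorable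
    intro v w hvw heq
    have heq' : (c v).1 = (c w).1 := by rw [heq]
    by_cases hv : ∃ i, b i = v
    · obtain ⟨i, rfl⟩ := hv
      rw [hc1 _ i rfl] at heq'
      by_cases hw : ∃ j, b j = w
      · obtain ⟨j, rfl⟩ := hw
        rw [hc1 _ j rfl] at heq'
        have := ha heq'
        subst this
        exact G.irrefl hvw
      · push Not at hw
        rw [hc2 _ hw] at heq'
        subst heq'
        exact hnon i hvw.symm
    · push Not at hv
      rw [hc2 _ hv] at heq'
      by_cases hw : ∃ j, b j = w
      · obtain ⟨j, rfl⟩ := hw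
        rw [hc1 _ j rfl] at heq'
        subst heq'
        exact hnon j hvw
      · push Not at hw
        rw [hc2 _ hw] at heq'
        subst heq'
        exact G.irrefl hvw
  · have hadj : ∀ i, G.Adj (a i) (b (f i)) := by
      intro i
      by_contra h
      exact hgood i ⟨a i, G.irrefl, h⟩
    have hdom : ∀ i x, G.Adj x (a i) ∨ G.Adj x (b (f i)) := by
      intro i x
      by_contra h
      push Not at h
      exact hgood i ⟨x, h.1, h.2⟩
    refine hasCompleteMinor_of_family G
      (fun v : T => {x | x = v.1 ∨ ∃ i, a i = v.1 ∧ x = b (f i)}) ?_ ?_ ?_ ?_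
    · exact fun v => ⟨v.1, Or.inl rfl⟩
    · intro v w hvw
      rw [Set.disjoint_left]
      rintro x (h1 | ⟨i, hi, h1⟩) (h2 | ⟨j, hj, h2⟩)
      · exact hvw (Subtype.ext (h1.symm.trans h2))
      · exact v.2 (f j) (h2.symm.trans h1)
      · exact w.2 (f i) (h1.symm.trans h2)
      · have hij : i = j := hf (hb (h1.symm.trans h2))
        subst hij
        exact hvw (Subtype.ext (hi.symm.trans hj))
    · intro v
      by_cases h : ∃ i, a i = v.1
      · obtain ⟨i, hi⟩ := h
        have hset : {x | x = v.1 ∨ ∃ i, a i = v.1 ∧ x = b (f i)} = ({a i, b (f i)} : Set V) := by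
          ext x
          simp only [Set.mem_ofPred_eq, Set.mem_insert_iff, Set.mem_singleton_iff]
          constructor
          · rintro (h1 | ⟨j, hj, h1⟩)
            · exact Or.inl (h1.trans hi.symm)
            · have : j = i := ha (hj.trans hi.symm)
              subst this
              exact Or.inr h1
          · rintro (h1 | h1)
            · exact Or.inl (h1.trans hi)
            · exact Or.inr ⟨i, hi, h1⟩
        rw [hset]
        exact G.induce_pair_connected_of_adj (hadj i)
      · push Not at h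
        have hset : {x | x = v.1 ∨ ∃ i, a i = v.1 ∧ x = b (f i)} = ({v.1} : Set V) := by
          ext x
          simp only [Set.mem_ofPred_eq, Set.mem_singleton_iff]
          constructor
          · rintro (h1 | ⟨j, hj, h1⟩)
            · exact h1
            · exact absurd hj (h j)
          · exact fun h1 => Or.inl h1
        rw [hset]
        exact SimpleGraph.Connected.of_subsingleton
    · intro v w hvw
      have hvw' : v.1 ≠ w.1 := fun h => hvw (Subtype.ext h)
      by_cases hv : ∃ i, a i = v.1
      · obtain ⟨i, hi⟩ := hv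
        rcases hdom i w.1 with h | h
        · exact ⟨v.1, Or.inl rfl, w.1, Or.inl rfl, by rw [← hi]; exact h.symm⟩
        · exact ⟨b (f i), Or.inr ⟨i, hi, rfl⟩, w.1, Or.inl rfl, h.symm⟩
      · by_cases hw : ∃ i, a i = w.1
        · obtain ⟨i, hi⟩ := hw
          rcases hdom i v.1 with h | h
          · exact ⟨v.1, Or.inl rfl, w.1, Or.inl rfl, by rw [← hi]; exact h⟩
          · exact ⟨v.1, Or.inl rfl, b (f i), Or.inr ⟨i, hi, rfl⟩, h⟩
        · push Not at hv hw
          refine ⟨v.1, Or.inl rfl, w.1, Or.inl rfl, hmax _ _ ?_ ?_ hvw'⟩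
          · rintro (i | i)
            · exact hv i
            · exact v.2 i
          · rintro (i | i)
            · exact hw i
            · exact w.2 i

end P060
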