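import Vale.Agent.P060.Maximal

namespace P060

open Finset

theorem core_color {V ι : Type*} [Fintype V] [DecidableEq V] [Fintype ι] [DecidableEq ι]
    (G : SimpleGraph V)
    (a b : ι → V) (hinj : Function.Injective (Sum.elim a b))
    (hnon : ∀ i, ¬ G.Adj (a i) (b i)) :
    G.Colorable (Fintype.card {v : V // ∀ i, b i ≠ v}) := by
  classical
  have ha : Function.Injective a := fun i j h => Sum.inl_injective (hinj (by simpa using h))
  have hb : Function.Injective b := fun i j h => Sum.inr_injective (hinj (by simpa using h))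
  have hab : ∀ i j, a i ≠ b j := fun i j h => by
    have := hinj (a₁ := Sum.inl i) (a₂ := Sum.inr j) (by simpa using h)
    simp at this
  let T := {v : V // ∀ i, b i ≠ v}
  have hc : ∀ v, ∃ c : T, (∀ i, b i = v → c.1 = a i) ∧ ((∀ i, b i ≠ v) → c.1 = v) := by
    intro v
    by_cases h : ∃ i, b i = v
    · obtain ⟨i, rfl⟩ := h
      exact ⟨⟨a i, fun j => (hab i j).symm⟩, fun j hj => by rw [hb hj],
        fun h => absurd rfl (h i)⟩
    · push Not at h
      exact ⟨⟨v, h⟩, fun i hi => absurd hi (h i), fun _ => rfl⟩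
  choose c hc1 hc2 using hc
  refine (SimpleGraph.Coloring.mk c ?_).colorable
  intro v w hvw heq
  have heq' : (c v).1 = (c w).1 := by rw [heq]
  by_cases hv : ∃ i, b i = v
  · obtain ⟨i, rfl⟩ := hv
    rw [hc1 _ i rfl] at heq'
    by_cases hw : ∃ j, b j = w
    · obtain ⟨j, rfl⟩ := hw
      rw [hc1 _ j rfl] at heq'
      have := ha heq'
      subst this
      exact G.irrefl hvw
    · push Not at hw
      rw [hc2 _ hw] at heq'
      subst heq'
      exact hnon i hvw.symm
  · push Not at hv
    rw [hc2 _ hv] at heq'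
    by_cases hw : ∃ j, b j = w
    · obtain ⟨j, rfl⟩ := hw
      rw [hc1 _ j rfl] at heq'
      subst heq'
      exact hnon j hvw
    · push Not at hw
      rw [hc2 _ hw] at heq'
      subst heq'
      exact G.irrefl hvw

theorem core_minor {V ι : Type*} [Fintype V] [DecidableEq V] [Fintype ι] [DecidableEq ι]
    (G : SimpleGraph V) (β : ℕ)
    (hball : ∀ v, ∃ S : Finset V, S.card ≤ β ∧ ∀ w, (∃ x, ¬ G.Adj x v ∧ ¬ G.Adj x w) → w ∈ S)
    (a b : ι → V) (hinj : Function.Injective (Sum.elim a b))
    (hmax : ∀ u w, (∀ x, Sum.elim a b x ≠ u) → (∀ x, Sum.elim a b x ≠ w) → u ≠ w → G.Adj u w)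
    (hm : 2 * β ≤ Fintype.card ι) :
    HasCompleteMinor G (Fintype.card {v : V // ∀ i, b i ≠ v}) := by
  classical
  have ha : Function.Injective a := fun i j h => Sum.inl_injective (hinj (by simpa using h))
  have hb : Function.Injective b := fun i j h => Sum.inr_injective (hinj (by simpa using h))
  obtain ⟨f, hf, hgood⟩ := repair (fun v w => ∃ x, ¬ G.Adj x v ∧ ¬ G.Adj x w)
    (fun v w ⟨x, h1, h2⟩ => ⟨x, h2, h1⟩) β hball a b ha hb hm
  let T := {v : V // ∀ i, b i ≠ v}
  have hadj : ∀ i, G.Adj (a i) (b (f i)) := by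
    intro i
    by_contra h
    exact hgood i ⟨a i, G.irrefl, h⟩
  have hdom : ∀ i x, G.Adj x (a i) ∨ G.Adj x (b (f i)) := by
    intro i x
    by_contra h
    push Not at h
    exact hgood i ⟨x, h.1, h.2⟩
  refine hasCompleteMinor_of_family G
    (fun v : T => {x | x = v.1 ∨ ∃ i, a i = v.1 ∧ x = b (f i)}) ?_ ?_ ?_ ?_
  · exact fun v => ⟨v.1, Or.inl rfl⟩
  · intro v w hvw
    rw [Set.disjoint_left]
    rintro x (h1 | ⟨i, hi, h1⟩) (h2 | ⟨j, hj, h2⟩)
    · exact hvw (Subtype.ext (h1.symm.trans h2))
    · exact v.2 (f j) (h2.symm.trans h1)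
    · exact w.2 (f i) (h1.symm.trans h2)
    · have hij : i = j := hf (hb (h1.symm.trans h2))
      subst hij
      exact hvw (Subtype.ext (hi.symm.trans hj))
  · intro v
    by_cases h : ∃ i, a i = v.1
    · obtain ⟨i, hi⟩ := h
      have hset : {x | x = v.1 ∨ ∃ i, a i = v.1 ∧ x = b (f i)} = ({a i, b (f i)} : Set V) := by
        ext x
        simp only [Set.mem_ofPred_eq, Set.mem_insert_iff, Set.mem_singleton_iff]
        constructor
        · rintro (h1 | ⟨j, hj, h1⟩)
          · exact Or.inl (h1.trans hi.symm)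
          · have : j = i := ha (hj.trans hi.symm)
            subst this
            exact Or.inr h1
        · rintro (h1 | h1)
          · exact Or.inl (h1.trans hi)
          · exact Or.inr ⟨i, hi, h1⟩
      rw [hset]
      exact G.induce_pair_connected_of_adj (hadj i)
    · push Not at h
      have hset : {x | x = v.1 ∨ ∃ i, a i = v.1 ∧ x = b (f i)} = ({v.1} : Set V) := by
        ext x
        simp only [Set.mem_ofPred_eq, Set.mem_singleton_iff]
        constructor
        · rintro (h1 | ⟨j, hj, h1⟩)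
          · exact h1
          · exact absurd hj (h j)
        · exact fun h1 => Or.inl h1
      rw [hset]
      exact SimpleGraph.Connected.of_subsingleton
  · intro v w hvw
    have hvw' : v.1 ≠ w.1 := fun h => hvw (Subtype.ext h)
    by_cases hv : ∃ i, a i = v.1
    · obtain ⟨i, hi⟩ := hv
      rcases hdom i w.1 with h | h
      · exact ⟨v.1, Or.inl rfl, w.1, Or.inl rfl, by rw [← hi]; exact h.symm⟩
      · exact ⟨b (f i), Or.inr ⟨i, hi, rfl⟩, w.1, Or.inl rfl, h.symm⟩
    · by_cases hw : ∃ i, a i = w.1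
      · obtain ⟨i, hi⟩ := hw
        rcases hdom i v.1 with h | h
        · exact ⟨v.1, Or.inl rfl, w.1, Or.inl rfl, by rw [← hi]; exact h⟩
        · exact ⟨v.1, Or.inl rfl, b (f i), Or.inr ⟨i, hi, rfl⟩, h⟩
      · push Not at hv hw
        refine ⟨v.1, Or.inl rfl, w.1, Or.inl rfl, hmax _ _ ?_ ?_ hvw'⟩
        · rintro (i | i)
          · exact hv i
          · exact v.2 i
        · rintro (i | i)
          · exact hw i
          · exact w.2 i

end P060
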