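import Vale.Agent.P060.Classes
import Vale.Agent.P064.BD.Fibre

namespace P060

open Finset

theorem count1 {V : Type*} [Fintype V] [DecidableEq V] (G : SimpleGraph V) [DecidableRel G.Adj]
    (d m : ℕ) (hdeg : ∀ v, (univ.filter (fun w => ¬ G.Adj v w)).card ≤ d)
    (a b : Fin m → V) (hb : Function.Injective b) :
    ∑ σ : Equiv.Perm (Fin m), (univ.filter (fun i => ¬ G.Adj (a i) (b (σ i)))).card
      ≤ m * d * (m - 1).factorial := by
  classical
  have e1 : ∑ σ : Equiv.Perm (Fin m), (univ.filter (fun i => ¬ G.Adj (a i) (b (σ i)))).card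
      = ∑ i : Fin m, (univ.filter
          (fun σ : Equiv.Perm (Fin m) => ¬ G.Adj (a i) (b (σ i)))).card := by
    simp only [Finset.card_filter]
    exact Finset.sum_comm
  rw [e1]
  have h1 : ∀ i : Fin m, (univ.filter
      (fun σ : Equiv.Perm (Fin m) => ¬ G.Adj (a i) (b (σ i)))).card ≤ d * (m - 1).factorial := by
    intro i
    let K : Finset (Fin m) := univ.filter (fun k => ¬ G.Adj (a i) (b k))
    have hK : K.card ≤ d := by
      refine le_trans ?_ (hdeg (a i))
      apply Finset.card_le_card_of_injOn b
      · intro k hk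
        have hk' : ¬ G.Adj (a i) (b k) := by simpa [K] using hk
        simpa using hk'
      · exact hb.injOn
    have hsub : univ.filter (fun σ : Equiv.Perm (Fin m) => ¬ G.Adj (a i) (b (σ i)))
        ⊆ K.biUnion (fun k => univ.filter
            (fun σ : Equiv.Perm (Fin m) => ∀ x ∈ ({i} : Finset (Fin m)), σ x = (fun _ => k) x)) := by
      intro σ hσ
      have hσ' : ¬ G.Adj (a i) (b (σ i)) := by simpa using hσ
      rw [Finset.mem_biUnion]
      refine ⟨σ i, by simpa [K] using hσ', ?_⟩
      simp
    calc (univ.filter (fun σ : Equiv.Perm (Fin m) => ¬ G.Adj (a i) (b (σ i)))).card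
        ≤ _ := Finset.card_le_card hsub
      _ ≤ ∑ k ∈ K, (univ.filter
            (fun σ : Equiv.Perm (Fin m) =>
              ∀ x ∈ ({i} : Finset (Fin m)), σ x = (fun _ => k) x)).card := Finset.card_biUnion_le
      _ ≤ ∑ _k ∈ K, (m - 1).factorial := by
          apply Finset.sum_le_sum
          intro k _
          have := Vale.Agent.P064.BD.card_agree_le ({i} : Finset (Fin m)) (fun _ => k)
          simpa using this
      _ = K.card * (m - 1).factorial := by simp
      _ ≤ d * (m - 1).factorial := Nat.mul_le_mul_right _ hK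
  calc ∑ i : Fin m, (univ.filter
          (fun σ : Equiv.Perm (Fin m) => ¬ G.Adj (a i) (b (σ i)))).card
      ≤ ∑ _i : Fin m, d * (m - 1).factorial := Finset.sum_le_sum (fun i _ => h1 i)
    _ = m * d * (m - 1).factorial := by simp [mul_assoc]

end P060
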