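import Vale.Agent.P060.Maximal

namespace P060

open Finset

theorem closed_nonnbrs {V : Type*} [Fintype V] [DecidableEq V] (G : SimpleGraph V)
    [DecidableRel G.Adj] (D : ℕ) (hdeg : ∀ v, Gᶜ.degree v ≤ D) (v : V) :
    ∃ S : Finset V, S.card ≤ D + 1 ∧ ∀ w, ¬ G.Adj v w → w ∈ S := by
  refine ⟨insert v (Gᶜ.neighborFinset v), ?_, ?_⟩
  · refine (card_insert_le _ _).trans ?_
    have := hdeg v
    rw [← SimpleGraph.card_neighborFinset_eq_degree] at this
    omega
  · intro w hw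
    by_cases h : w = v
    · simp [h]
    · rw [mem_insert]
      right
      rw [SimpleGraph.mem_neighborFinset, SimpleGraph.compl_adj]
      exact ⟨fun h' => h h'.symm, hw⟩

theorem matching_form {V : Type*} [Fintype V] [DecidableEq V] (G : SimpleGraph V)
    [DecidableRel G.Adj] (D m : ℕ) (hdeg : ∀ v, Gᶜ.degree v ≤ D)
    (a b : Fin m → V) (hinj : Function.Injective (Sum.elim a b))
    (hnon : ∀ i, Gᶜ.Adj (a i) (b i)) (hm : 2 * (D + 1) ^ 2 ≤ m) :
    ∃ t, G.Colorable t ∧ HasCompleteMinor G t := by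
  obtain ⟨m', hmm, a', b', hinj', hnon', hmax⟩ := exists_maximal G m a b hinj
    (fun i => ((SimpleGraph.compl_adj _ _ _).1 (hnon i)).2)
  refine core G (D + 1) (closed_nonnbrs G D hdeg) a' b' hinj' hnon' hmax ?_
  rw [Fintype.card_fin]
  calc 2 * ((D + 1) * (D + 1)) = 2 * (D + 1) ^ 2 := by ring
    _ ≤ m := hm
    _ ≤ m' := hmm

theorem count_form {V : Type*} [Fintype V] [DecidableEq V] (G : SimpleGraph V)
    [DecidableRel G.Adj] (D : ℕ) (hdeg : ∀ v, Gᶜ.degree v ≤ D)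
    (hn : 4 * (D + 1) ^ 3 ≤ (univ.filter (fun v => ∃ w, w ≠ v ∧ ¬ G.Adj v w)).card) :
    ∃ t, G.Colorable t ∧ HasCompleteMinor G t := by
  obtain ⟨m, -, a, b, hinj, hnon, hmax⟩ := exists_maximal G 0 Fin.elim0 Fin.elim0
    (by rintro (x | x) <;> exact x.elim0) (fun i => i.elim0)
  refine core G (D + 1) (closed_nonnbrs G D hdeg) a b hinj hnon hmax ?_
  rw [Fintype.card_fin]
  choose S hS hS2 using closed_nonnbrs G D hdeg
  have hsub : univ.filter (fun v => ∃ w, w ≠ v ∧ ¬ G.Adj v w) ⊆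
      (univ : Finset (Fin m ⊕ Fin m)).biUnion (fun x => S (Sum.elim a b x)) := by
    intro v hv
    obtain ⟨w, hwv, hadj⟩ := (mem_filter.1 hv).2
    rw [mem_biUnion]
    by_cases h1 : ∃ x, Sum.elim a b x = v
    · obtain ⟨x, hx⟩ := h1
      exact ⟨x, mem_univ _, hS2 _ _ (by rw [hx]; exact G.irrefl)⟩
    · by_cases h2 : ∃ x, Sum.elim a b x = w
      · obtain ⟨x, hx⟩ := h2
        exact ⟨x, mem_univ _, hS2 _ _ (by rw [hx]; exact fun h => hadj h.symm)⟩
      · push Not at h1 h2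
        exact absurd (hmax v w h1 h2 hwv.symm) hadj
  have hcard := (card_le_card hsub).trans
    (card_biUnion_le_card_mul _ _ (D + 1) (fun x _ => hS _))
  rw [card_univ, Fintype.card_sum, Fintype.card_fin] at hcard
  have h3 : 2 * ((D + 1) * (D + 1)) * (2 * (D + 1)) ≤ m * (2 * (D + 1)) := by
    calc 2 * ((D + 1) * (D + 1)) * (2 * (D + 1)) = 4 * (D + 1) ^ 3 := by ring
      _ ≤ (m + m) * (D + 1) := hn.trans hcard
      _ = m * (2 * (D + 1)) := by ring
  exact Nat.le_of_mul_le_mul_right h3 (by positivity)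

end P060
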