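import Vale.Agent.P060.Core2
import Vale.Agent.P060.Forms

namespace P060

open Finset

theorem ball_form {V : Type*} [Fintype V] [DecidableEq V] (G : SimpleGraph V)
    [DecidableRel G.Adj] (β m : ℕ)
    (hball : ∀ v, (univ.filter (fun w => ∃ x, ¬ G.Adj x v ∧ ¬ G.Adj x w)).card ≤ β)
    (a b : Fin m → V) (hinj : Function.Injective (Sum.elim a b))
    (hnon : ∀ i, Gᶜ.Adj (a i) (b i)) (hm : 2 * β ≤ m) :
    ∃ t, G.Colorable t ∧ HasCompleteMinor G t := by
  obtain ⟨m', hmm, a', b', hinj', hnon', hmax⟩ := exists_maximal G m a b hinj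
    (fun i => ((SimpleGraph.compl_adj _ _ _).1 (hnon i)).2)
  exact ⟨_, core_color G a' b' hinj' hnon',
    core_minor G β (fun v => ⟨_, hball v, fun w hw => by simpa using hw⟩) a' b' hinj' hmax
      (by rw [Fintype.card_fin]; omega)⟩

theorem half_aux {V : Type*} [Fintype V] [DecidableEq V] (G : SimpleGraph V)
    [DecidableRel G.Adj] (β n m : ℕ)
    (hball : ∀ v, (univ.filter (fun w => ∃ x, ¬ G.Adj x v ∧ ¬ G.Adj x w)).card ≤ β)
    (e : Fin n ≃ V) (h1 : 2 * m ≤ n) (h2 : n ≤ 2 * m + 1) (hβ : 2 * β ≤ m) :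
    HasCompleteMinor G (n - m) := by
  let a : Fin m → V := fun i => e ⟨i.1, by have := i.2; omega⟩
  let b : Fin m → V := fun i => e ⟨m + i.1, by have := i.2; omega⟩
  have hinj : Function.Injective (Sum.elim a b) := by
    rintro (i | i) (j | j) h
    · have h' := congrArg Fin.val (e.injective h)
      exact congrArg Sum.inl (Fin.ext h')
    · have h' := congrArg Fin.val (e.injective h)
      have := i.2
      simp only at h'
      omega
    · have h' := congrArg Fin.val (e.injective h)
      have := j.2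
      simp only at h'
      omega
    · have h' := congrArg Fin.val (e.injective h)
      simp only at h'
      exact congrArg Sum.inr (Fin.ext (by omega))
  have hb : Function.Injective b := fun i j h => Sum.inr_injective (hinj (by simpa using h))
  have hun : ∀ u, (∀ x, Sum.elim a b x ≠ u) → (e.symm u).1 = 2 * m := by
    intro u hu
    by_contra hne
    have hlt := (e.symm u).2
    by_cases hc : (e.symm u).1 < m
    · apply hu (Sum.inl ⟨(e.symm u).1, hc⟩)
      simp [a]
    · apply hu (Sum.inr ⟨(e.symm u).1 - m, by omega⟩)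
      have : m + ((e.symm u).1 - m) = (e.symm u).1 := by omega
      simp [b, this]
  have hmax : ∀ u w, (∀ x, Sum.elim a b x ≠ u) → (∀ x, Sum.elim a b x ≠ w) → u ≠ w →
      G.Adj u w := by
    intro u w hu hw huw
    exfalso
    apply huw
    apply e.symm.injective
    exact Fin.ext ((hun u hu).trans (hun w hw).symm)
  have hmin := core_minor G β (fun v => ⟨_, hball v, fun w hw => by simpa using hw⟩) a b hinj hmax
      (by rw [Fintype.card_fin]; omega)
  have hcard : Fintype.card {v : V // ∀ i, b i ≠ v} = n - m := by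
    rw [Fintype.card_subtype]
    have hset : univ.filter (fun v => ∀ i, b i ≠ v) = univ \ univ.image b := by
      ext v
      simp
    rw [hset, card_sdiff_of_subset (subset_univ _), card_image_of_injective _ hb, card_univ,
      card_univ, Fintype.card_fin, ← Fintype.card_congr e, Fintype.card_fin]
  rw [← hcard]
  convert hmin

theorem half_minor {V : Type*} [Fintype V] [DecidableEq V] (G : SimpleGraph V)
    [DecidableRel G.Adj] (β : ℕ)
    (hball : ∀ v, (univ.filter (fun w => ∃ x, ¬ G.Adj x v ∧ ¬ G.Adj x w)).card ≤ β)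
    (hn : 4 * β ≤ Fintype.card V) :
    HasCompleteMinor G ((Fintype.card V + 1) / 2) := by
  have h := half_aux G β (Fintype.card V) (Fintype.card V / 2) hball (Fintype.equivFin V).symm
    (by omega) (by omega) (by omega)
  have h2 : Fintype.card V - Fintype.card V / 2 = (Fintype.card V + 1) / 2 := by omega
  rw [h2] at h
  exact h

theorem ball_le_of_deg {V : Type*} [Fintype V] [DecidableEq V] (G : SimpleGraph V)
    [DecidableRel G.Adj] (D : ℕ) (hdeg : ∀ v, Gᶜ.degree v ≤ D) (v : V) :
    (univ.filter (fun w => ∃ x, ¬ G.Adj x v ∧ ¬ G.Adj x w)).card ≤ (D + 1) ^ 2 := by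
  choose N hN hN2 using closed_nonnbrs G D hdeg
  have hsub : univ.filter (fun w => ∃ x, ¬ G.Adj x v ∧ ¬ G.Adj x w) ⊆ (N v).biUnion N := by
    intro w hw
    obtain ⟨x, h1, h2⟩ := (mem_filter.1 hw).2
    exact mem_biUnion.2 ⟨x, hN2 v x (fun h => h1 h.symm), hN2 x w h2⟩
  calc _ ≤ ((N v).biUnion N).card := card_le_card hsub
    _ ≤ (N v).card * (D + 1) := card_biUnion_le_card_mul _ _ _ (fun x _ => hN x)
    _ ≤ (D + 1) * (D + 1) := Nat.mul_le_mul_right _ (hN v)
    _ = (D + 1) ^ 2 := by ring

end P060
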