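import Vale.Agent.P060.Avg
import Vale.Agent.P060.Forms

namespace P060

open Finset

theorem almost_half_deg {V : Type*} [Fintype V] [DecidableEq V] (G : SimpleGraph V)
    [DecidableRel G.Adj] (D : ℕ) (hdeg : ∀ v, Gᶜ.degree v ≤ D) :
    ∃ t, HasCompleteMinor G t ∧
      (Fintype.card V / 2 - 1) * (Fintype.card V / 2)
        ≤ (Fintype.card V / 2 - 1) * (t + (D + 1)) + (D + 1) ^ 3 := by
  apply almost_half G (D + 1)
  intro v
  obtain ⟨S, hS, hS2⟩ := closed_nonnbrs G D hdeg v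
  refine le_trans (card_le_card ?_) hS
  intro w hw
  exact hS2 w (mem_filter.1 hw).2

theorem classes_form {V : Type*} [Fintype V] [DecidableEq V] (G : SimpleGraph V) (K : ℕ)
    (c : Gᶜ.Coloring (Fin K))
    (hC4 : ∀ x u y v, Gᶜ.Adj x u → Gᶜ.Adj u y → Gᶜ.Adj y v → Gᶜ.Adj v x → x ≠ y → u ≠ v →
      ¬ (c x = c y ∧ c u = c v)) :
    ∃ t, Fintype.card V ≤ 2 * t + K ∧ HasCompleteMinor G t := by
  apply pairs_in_classes G K c
  · intro x y hxy hc
    by_contra h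
    exact c.valid ((SimpleGraph.compl_adj _ _ _).2 ⟨hxy, h⟩) hc
  · intro x y u v hxy huv hc1 hc2 hne
    by_contra hcon
    push Not at hcon
    obtain ⟨h1, h2, h3, h4⟩ := hcon
    have n1 : x ≠ u := fun h => hne (by rw [h])
    have n2 : x ≠ v := fun h => hne (by rw [h, hc2])
    have n3 : y ≠ u := fun h => hne (by rw [hc1, h])
    have n4 : y ≠ v := fun h => hne (by rw [hc1, h, hc2])
    refine hC4 x u y v ((SimpleGraph.compl_adj _ _ _).2 ⟨n1, h1⟩)
      ((SimpleGraph.compl_adj _ _ _).2 ⟨n3.symm, fun h => h3 h.symm⟩)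
      ((SimpleGraph.compl_adj _ _ _).2 ⟨n4, h4⟩)
      ((SimpleGraph.compl_adj _ _ _).2 ⟨n2.symm, fun h => h2 h.symm⟩) hxy huv ⟨hc1, hc2⟩

end P060
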