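import Vale.Agent.P060.Core

namespace P060

open Finset

theorem exists_maximal {V : Type*} [Fintype V] [DecidableEq V] (G : SimpleGraph V) (m₀ : ℕ)
    (a₀ b₀ : Fin m₀ → V) (hinj₀ : Function.Injective (Sum.elim a₀ b₀))
    (hnon₀ : ∀ i, ¬ G.Adj (a₀ i) (b₀ i)) :
    ∃ m, m₀ ≤ m ∧ ∃ a b : Fin m → V, Function.Injective (Sum.elim a b) ∧
      (∀ i, ¬ G.Adj (a i) (b i)) ∧
      (∀ u w, (∀ x, Sum.elim a b x ≠ u) → (∀ x, Sum.elim a b x ≠ w) → u ≠ w → G.Adj u w) := by
  classical
  let P : ℕ → Prop := fun m => ∃ a b : Fin m → V, Function.Injective (Sum.elim a b) ∧
    (∀ i, ¬ G.Adj (a i) (b i))
  have hbound : ∀ m, P m → m ≤ Fintype.card V := by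
    rintro m ⟨a, b, hinj, -⟩
    have := Fintype.card_le_of_injective _ hinj
    simp at this
    omega
  have hP0 : P m₀ := ⟨a₀, b₀, hinj₀, hnon₀⟩
  have hspec := Nat.findGreatest_spec (hbound _ hP0) hP0
  have hle := Nat.le_findGreatest (hbound _ hP0) hP0
  obtain ⟨a, b, hinj, hnon⟩ := hspec
  refine ⟨_, hle, a, b, hinj, hnon, ?_⟩
  intro u w hu hw huw
  by_contra hadj
  have hP1 : P (Nat.findGreatest P (Fintype.card V) + 1) := by
    refine ⟨Fin.cons u a, Fin.cons w b, ?_, ?_⟩
    · have hua : ∀ i, a i ≠ u := fun i => hu (Sum.inl i)
      have hub : ∀ i, b i ≠ u := fun i => hu (Sum.inr i)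
      have hwa : ∀ i, a i ≠ w := fun i => hw (Sum.inl i)
      have hwb : ∀ i, b i ≠ w := fun i => hw (Sum.inr i)
      have haa : ∀ i j, a i = a j → i = j := fun i j h =>
        Sum.inl_injective (hinj (by simpa using h))
      have hbb : ∀ i j, b i = b j → i = j := fun i j h =>
        Sum.inr_injective (hinj (by simpa using h))
      have hab : ∀ i j, a i ≠ b j := fun i j h => by
        have := hinj (a₁ := Sum.inl i) (a₂ := Sum.inr j) (by simpa using h)
        simp at this
      rintro (x | x) (y | y) h
      · induction x using Fin.cases with
        | zero =>
          induction y using Fin.cases with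
          | zero => rfl
          | succ j => exact absurd (by simpa using h.symm) (hua j)
        | succ i =>
          induction y using Fin.cases with
          | zero => exact absurd (by simpa using h) (hua i)
          | succ j => rw [haa i j (by simpa using h)]
      · induction x using Fin.cases with
        | zero =>
          induction y using Fin.cases with
          | zero => exact absurd (by simpa using h) huw
          | succ j => exact absurd (by simpa using h.symm) (hub j)
        | succ i =>
          induction y using Fin.cases with
          | zero => exact absurd (by simpa using h) (hwa i)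
          | succ j => exact absurd (by simpa using h) (hab i j)
      · induction x using Fin.cases with
        | zero =>
          induction y using Fin.cases with
          | zero => exact absurd (by simpa using h.symm) huw
          | succ j => exact absurd (by simpa using h.symm) (hwa j)
        | succ i =>
          induction y using Fin.cases with
          | zero => exact absurd (by simpa using h) (hub i)
          | succ j => exact absurd (by simpa using h.symm) (hab j i)
      · induction x using Fin.cases with
        | zero =>
          induction y using Fin.cases with
          | zero => rfl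
          | succ j => exact absurd (by simpa using h.symm) (hwb j)
        | succ i =>
          induction y using Fin.cases with
          | zero => exact absurd (by simpa using h) (hwb i)
          | succ j => rw [hbb i j (by simpa using h)]
    · intro i
      induction i using Fin.cases with
      | zero => simpa using hadj
      | succ j => simpa using hnon j
  have := Nat.le_findGreatest (hbound _ hP1) hP1
  omega

end P060
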