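import Mathlib

namespace P060

open Finset

/-- Hall re-pairing: if every vertex is in conflict with at most `β` vertices and there are at
least `2 β` indices, the `a`-side can be matched bijectively to the `b`-side without conflict. -/
theorem repair {V ι : Type*} [Fintype V] [DecidableEq V] [Fintype ι] [DecidableEq ι]
    (bad : V → V → Prop) (hsymm : ∀ v w, bad v w → bad w v)
    (β : ℕ) (hdeg : ∀ v, ∃ S : Finset V, S.card ≤ β ∧ ∀ w, bad v w → w ∈ S)
    (a b : ι → V) (ha : Function.Injective a) (hb : Function.Injective b)
    (hm : 2 * β ≤ Fintype.card ι) :
    ∃ f : ι → ι, Function.Injective f ∧ ∀ i, ¬ bad (a i) (b (f i)) := by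
  classical
  have key := (Finset.all_card_le_biUnion_card_iff_exists_injective
    (fun i : ι => univ.filter (fun j => ¬ bad (a i) (b j)))).1 ?_
  · obtain ⟨f, hf, hf2⟩ := key
    exact ⟨f, hf, fun i => by simpa using hf2 i⟩
  · intro s
    have h1 : ∀ i, (univ.filter (fun j => bad (a i) (b j))).card ≤ β := by
      intro i
      obtain ⟨S, hS, hS2⟩ := hdeg (a i)
      refine le_trans ?_ hS
      apply Finset.card_le_card_of_injOn b
      · intro j hj
        have : bad (a i) (b j) := by simpa using hj
        exact hS2 _ this
      · exact hb.injOn
    have h2 : ∀ j, (univ.filter (fun i => bad (a i) (b j))).card ≤ β := by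
      intro j
      obtain ⟨S, hS, hS2⟩ := hdeg (b j)
      refine le_trans ?_ hS
      apply Finset.card_le_card_of_injOn a
      · intro i hi
        have : bad (a i) (b j) := by simpa using hi
        exact hS2 _ (hsymm _ _ this)
      · exact ha.injOn
    by_cases hs : s.card ≤ β
    · rcases s.eq_empty_or_nonempty with rfl | ⟨i, hi⟩
      · simp
      · have h4 : (univ.filter (fun j => ¬ bad (a i) (b j))).card ≤
            (s.biUnion (fun i : ι => univ.filter (fun j => ¬ bad (a i) (b j)))).card :=
          card_le_card (subset_biUnion_of_mem
            (fun i : ι => univ.filter (fun j => ¬ bad (a i) (b j))) hi)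
        have h3 := card_filter_add_card_filter_not (s := (univ : Finset ι))
          (fun j => bad (a i) (b j))
        have h5 := h1 i
        rw [card_univ] at h3
        omega
    · have h6 : s.biUnion (fun i => univ.filter (fun j => ¬ bad (a i) (b j))) = univ := by
        ext j
        simp only [mem_biUnion, mem_filter, mem_univ, true_and, iff_true]
        by_contra hcon
        push Not at hcon
        have h7 : s ⊆ univ.filter (fun i => bad (a i) (b j)) := by
          intro i hi
          simp only [mem_filter, mem_univ, true_and]
          exact hcon i hi
        have h8 := card_le_card h7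
        have h9 := h2 j
        omega
      rw [h6]
      exact card_le_univ s

end P060
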